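import Vale.Agent.P354DR.Psh
import Vale.Agent.P354XD.GrB

/-!
The metric is close to the pull back of Kerr: the algebra.
-/

namespace Vale.Agent.P354NC

open Vale.Agent.P354XG Vale.Agent.P354XF Vale.Agent.P354XR Vale.Agent.P354XD Matrix
open Vale.Agent.P354RI (RR KR kc zv ky fr_kc rr_hom)
open Vale.Agent.P354DR (kc_rr kr_kk zv_z)

variable {A T A0 : Type} [CommRing A] [Algebra ℂ A] [CommRing T] [Algebra ℂ T] [CommRing A0]
  [Algebra ℂ A0] {c : A →+* A} {N N' : Hen c} {Φ : T →ₐ[ℂ] A} {K : Hp T} {p : Pm T}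

theorem rr_cg (ψ : A0 →ₐ[ℂ] A) : RR fun f g => N.Cg (ψ f) (Φ g) :=
  ⟨fun h k => by rw [map_add, map_add]; exact h.add k,
    fun h k => by rw [map_mul, map_mul]; exact h.mul k,
    fun z => by rw [ψ.commutes, Φ.commutes]; exact Hen.cg_alg z⟩

theorem cg_inv {u u' s s' : A} (h : N.Cg u u') (e : s * u = 1) (e' : s' * u' = 1) (b : s' ∈ N.B) :
    N.Cg s s' := by
  obtain ⟨v, hv, k⟩ := h.inv ((mul_comm _ _).trans e') b
  rwa [show s = v by linear_combination v * e - s * hv]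

theorem hi (φ : T →ₐ[ℂ] A) {u s : T} (e : u * s = 1) : φ s * φ u = 1 := by
  rw [← map_mul, mul_comm, e, map_one]

theorem om_rr {ρ : A0 → T → Prop} (h : RR ρ) {K0 : Hp A0} (z : ∀ i, i ≠ 0 → ρ (K0.z i) (K.z i))
    (n : ρ K0.Ni K.Ni) (i : Fin 4) : ρ (K0.om i) (K.om i) := by
  have u := h.mul (z 4 (by decide)) (z 3 (by decide))
  have v := h.mul (z 2 (by decide)) (z 5 (by decide))
  fin_cases i
  exacts [h.zero, h.mul (h.add u v) n, h.neg (h.mul (h.mul h.ii (h.sub u v)) n), (kc_rr h z n).1]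

theorem co_zero (K : Hp A) : K.co 0 = K.z 0 := by simp [Hp.co, Hp.e0, Hp.om]

theorem co_ne (K : Hp A) {i : Fin 4} (h : i ≠ 0) : K.co i = K.z 1 * K.om i := by
  fin_cases i
  exacts [absurd rfl h, by simp [Hp.co, Hp.e0], by simp [Hp.co, Hp.e0], by simp [Hp.co, Hp.e0]]

theorem L_mem {K : Hp A} {B : Subalgebra ℂ A} (b : HB K B) {I : AddSubgroup A}
    (m : ∀ b ∈ B, ∀ a ∈ I, b * a ∈ I) {f : A} (h : ∀ k, K.d k f ∈ I) (a : Fin 4) : K.L a f ∈ I := by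
  have r := mul_mem (hf_mem (B := B)) b.ri
  rw [Hp.L_ap, Hp.P_ap, Hp.Q_ap]
  exact add_mem (add_mem (add_mem (m _ (e0_mem a) _ (h 0)) (m _ (b.om a) _ (h 1)))
    (m _ (mul_mem r (b.mu a)) _ (sub_mem (m _ b.z4 _ (h 3)) (m _ b.z5 _ (h 2)))))
    (m _ (mul_mem r (b.mub a)) _ (sub_mem (m _ b.z2 _ (h 5)) (m _ b.z3 _ (h 4))))

/-- The new chart is close to the chart K0. -/
theorem near {K0 : Hp A} {p0 : Pm A} (k0 : K0.Is) (q0 : p0.Is K0) (k : K.Is) (q : p.Is K)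
    (h1 : p.h1 = 1) (j1 : p.j1 = 0) (b : HB K0 N.B) (s : p0.sg ∈ N.B)
    (z : ∀ i, i ≠ 0 → N.Cg (Φ (K.z i)) (K0.z i)) (a : N.Cg (Φ p.a) p0.a) (M : N.Cg (Φ p.M) p0.M) :
    HB K (N.B.comap Φ) ∧ PB p (N.B.comap Φ) ∧ ∀ i, i ≠ 0 → N.Cg (Φ (K.co i)) (K0.co i) := by
  have r := rr_cg (N := N) (Φ := AlgHom.id ℂ A) Φ
  have z1 := z 1 (by decide)
  have n : N.Cg (Φ K.Ni) K0.Ni := cg_inv (r.add (r.mul (z 2 (by decide)) (z 4 (by decide)))
    (r.mul (z 3 (by decide)) (z 5 (by decide)))) (hi Φ k.hN) ((mul_comm _ _).trans k0.hN) b.Ni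
  have x := (kc_rr r z n).1
  refine ⟨⟨fun i hi => (z i hi).mem, (cg_inv z1 (hi Φ k.hr) ((mul_comm _ _).trans k0.hr) b.ri).mem,
    n.mem⟩, ⟨a.mem, M.mem, (cg_inv (r.add (r.mul z1 z1) (r.mul (r.mul (r.mul a a) x) x))
      (hi Φ ((mul_comm _ _).trans q.hg)) q0.hg s).mem, h1 ▸ one_mem _, j1 ▸ zero_mem _⟩,
    fun i hi => ?_⟩
  rw [co_ne K hi, co_ne K0 hi]
  exact r.mul z1 (om_rr r z n i)

variable (k : K.Is) (b : HB K (N.B.comap Φ))
include k b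

/-- The table of the rigidity theorem is close to the frame of Kerr at the new point. -/
theorem pull {ψ : A0 →ₐ[ℂ] A} (q : p.Is K) (h1 : p.h1 = 1) (j1 : p.j1 = 0)
    (s : PB p (N.B.comap Φ)) {y : Fin 6 → A0} {c0 : A0 →+* A0} {Ni sg a M : A0}
    (hy : ∀ i, ψ (y i) = Φ (K.z i)) (hN : (ky c0 y Ni sg a M).N * Ni = 1)
    (hg : sg * (y 1 * y 1 + a * a * (ky c0 y Ni sg a M).x * (ky c0 y Ni sg a M).x) = 1)
    (ha : N.Cg (ψ a) (Φ p.a)) (hM : N.Cg (ψ M) (Φ p.M)) (e i : Fin 6) :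
    N.Cg (ψ (zv (kc (ky c0 y Ni sg a M) e) y i)) (Φ (fr (kk K p).kerr e (K.z i))) := by
  have r := rr_cg (N := N) (Φ := Φ) ψ
  have z : ∀ i, i ≠ 0 → N.Cg (ψ (y i)) (Φ (K.z i)) := fun i hi => .of (.refl (b.z i hi)) (hy i)
  have n : N.Cg (ψ Ni) (Φ K.Ni) := cg_inv (r.add (r.mul (z 2 (by decide)) (z 4 (by decide)))
    (r.mul (z 3 (by decide)) (z 5 (by decide)))) (hi ψ hN) (hi Φ k.hN) b.Ni
  have x := (kc_rr (K := ⟨c0, 0, y, 0, Ni⟩) r z n).1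
  have z1 := z 1 (by decide)
  have k1 : KR (fun f g => N.Cg (ψ f) (Φ g)) (ky c0 y Ni sg a M) (kk K p) :=
    kr_kk (K := ⟨c0, 0, y, 0, Ni⟩) r z n (cg_inv (r.add (r.mul z1 z1)
      (r.mul (r.mul (r.mul ha ha) x) x)) (hi ψ ((mul_comm _ _).trans hg))
      (hi Φ ((mul_comm _ _).trans q.hg)) s.sg) ha hM
  rw [fr_kc, zv_z k h1 j1]
  exact r.zv (k1.kc e) z i

/-- From the coordinates of the bundle to the coordinates of the base. -/
theorem der_co {X : P354XG.Der A} {X0 : P354XG.Der T}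
    (e : ∀ i, N.Cg (X (Φ (K.z i))) (Φ (X0 (K.z i)))) (i : Fin 4) :
    N.Cg (X (Φ (K.co i))) (Φ (X0 (K.co i))) := by
  have r : RR fun f (_ : T) => Φ f ∈ N.B ∧ N.Cg (X (Φ f)) (Φ (X0 f)) :=
    ⟨fun h k => by simpa only [map_add] using ⟨add_mem h.1 k.1, h.2.add k.2⟩,
      fun h k => by
        simpa only [map_mul, D_mul, map_add] using ⟨mul_mem h.1 k.1,
          ((Hen.Cg.refl h.1).mul k.2).add ((Hen.Cg.refl k.1).mul h.2)⟩,
      fun z => by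
        rw [Φ.commutes, D_alg, D_alg, map_zero]
        exact ⟨algebraMap_mem _ z, .refl (zero_mem _)⟩⟩
  have z : ∀ i, i ≠ 0 → Φ (K.z i) ∈ N.B ∧ N.Cg (X (Φ (K.z i))) (Φ (X0 (K.z i))) :=
    fun i hi => ⟨b.z i hi, e i⟩
  have n := (r.add (a' := 0) (b' := 0) (r.mul (a' := 0) (b' := 0) (z 2 (by decide)) (z 4 (by decide)))
    (r.mul (a' := 0) (b' := 0) (z 3 (by decide)) (z 5 (by decide)))).2
  have n' : N.Cg (X (Φ K.Ni)) (Φ (X0 K.Ni)) := by
    have e := (mul_comm _ _).trans k.hN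
    rw [KC.D_inv X0 e, KC.D_inv X (hi Φ k.hN), map_neg,
      map_mul, map_mul]
    exact ((Hen.Cg.refl (mul_mem b.Ni b.Ni)).mul n).neg
  by_cases h : i = 0
  · rw [h, co_zero]; exact e 0
  · rw [co_ne K h]
    exact (r.mul (a' := 0) (b' := 0) (z 1 (by decide)) (om_rr (K := K) r z ⟨b.Ni, n'⟩ i)).2

/-- The metric is close to the pull back of Kerr. -/
theorem met {K0 : Hp A} {g : Fin 4 → Fin 4 → A} {Γ : Fin 4 → Fin 4 → Fin 4 → A} {F : Fr A}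
    (q : p.Is K) (s : PB p (N.B.comap Φ)) (i : (K0.geo g Γ).Is) (n : F.Nl (K0.geo g Γ))
    (e : ∀ e i, N.Cg (fr (F.ghp (K0.geo g Γ)) e (Φ (K.z i))) (Φ (fr (kk K p).kerr e (K.z i))))
    (cH : ∀ i, K0.H (Φ (K.co i)) = 0) (cB : ∀ i, K0.B (Φ (K.co i)) = 0) (l : N'.B ≤ N.B)
    (j : ∀ a i, N'.Cg (K0.L a (Φ (K.co i))) (if a = i then 1 else 0)) (a d : Fin 4) :
    N.Cg (g a d) (∑ j, (∑ i, K0.L a (Φ (K.co i)) * Φ (gK K p i j)) * K0.L d (Φ (K.co j))) := by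
  let J : Matrix (Fin 4) (Fin 4) A := of fun a i => K0.L a (Φ (K.co i))
  obtain ⟨V, -, v⟩ := Hen.mat_inv (W := J) j
  have v' := mul_eq_one_comm.1 v
  have w := frK_wn k q 0
  have e0 := congrArg Φ.mapMatrix (P354BO.null_mat (S := K.geo (gK K p) 0)
    (P354BO.c_gK k q) P354BO.gK_symm w.nl)
  rw [map_mul, map_mul] at e0
  have := cg_met (N := N) (E := of ![F.l, F.n, F.m, F.mb] * J) (g := V * of g * Vᵀ) (η := P354BO.eta A)
    (fun a i => by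
      have u : ∀ X, ∑ e, X e * J e i = (K0.geo g Γ).act
          (Geo.hat (K0.geo g Γ) F.l F.n F.m F.mb X) (Φ (K.co i)) := fun X => by
        rw [Geo.act_apply, show (K0.geo g Γ).H _ = 0 from cH i,
          show (K0.geo g Γ).Hb _ = 0 from cB i, mul_zero, mul_zero, add_zero, add_zero]
        rfl
      fin_cases a
      exacts [(der_co k b (e 0) i).of (u F.l), (der_co k b (e 1) i).of (u F.n),
        (der_co k b (e 2) i).of (u F.m), (der_co k b (e 3) i).of (u F.mb)]) (fun i k => b.gK s i k)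
    (by rw [transpose_mul, ← Matrix.mul_assoc, ← Matrix.mul_assoc, ← Matrix.mul_assoc,
      Matrix.mul_assoc _ J, v', Matrix.mul_one, Matrix.mul_assoc _ Vᵀ, ← transpose_mul, v',
      transpose_one, Matrix.mul_one]; exact P354BO.null_mat i.c_g i.g_symm n)
    (e0.trans (by ext i k; fin_cases i <;> fin_cases k <;> simp [P354BO.eta]))
    (by ext i k; fin_cases i <;> fin_cases k <;> simp [P354BO.eta, mul_apply, Fin.sum_univ_four])
  have bJ : ∀ i k, N.Cg (J i k) (J i k) := fun i k => .refl (l (j i k).mem)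
  have := cg_mm (cg_mm bJ this) (Y := Jᵀ) (Y' := Jᵀ) (fun i k => bJ k i) a d
  rwa [← Matrix.mul_assoc, ← Matrix.mul_assoc, v', Matrix.one_mul, Matrix.mul_assoc, ← transpose_mul,
    v', transpose_one, Matrix.mul_one] at this

end Vale.Agent.P354NC
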