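import Vale.Agent.P354MG.Parts

/-!
The parts of NC. Exact statements.
-/

open scoped ContDiff
open Set Filter Topology

noncomputable section

namespace Vale.Agent.P354NC

open Vale.Agent.P354n (R4)
open Vale.Agent.P354I (rm)
open Vale.Agent.P354XG (E6)
open Vale.Agent.P354XD (pj)
open Vale.Agent.P354MG
open Vale.Agent.P354XE (Tw gin eT)
open Vale.Agent.P354XV (Lv)
open Vale.Agent.P354XO (Om)
open Vale.Agent.P354YN (Ad zN)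
open Vale.Agent.P354RI (Dm SB RIG)
open Vale.Agent.P354RN (shr Hy RIN)

/-- The difference of the new and the old time. -/
def tau (H : ℝ → ℝ) (y : R4 → R4) (x : E6) : ℝ := (y (pj (shr H x))).1 - (shr H x).1

/-- The estimates at the point x. -/
structure At (M a : ℝ) (H : ℝ → ℝ) (n : ℕ) (g : Tw) (y : R4 → R4) (pq : ℝ → ℝ × ℝ) (x : E6)
    (μ ν : ℝ) : Prop where
  id : Nid n y (pj (shr H x)) ν
  par : ‖pq x.1 - (M, a)‖ ≤ ν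
  met : P354XE.Bd n (g - P354XE.pb y (gin (pq x.1).1 (pq x.1).2)) (pj (shr H x)) μ
  dp : ∃ d, HasDerivAt pq d x.1 ∧ ‖d‖ ≤ μ
  dt : DifferentiableAt ℝ (tau H y) x ∧ ‖fderiv ℝ (tau H y) x‖ ≤ ν

/-- NYF: the chart and the parameters of a family. -/
def NYF : Prop := ∀ (J : Type) (m : Dm J) [Gr m.sF] (_ : m.Ok) (M a : ℝ) (g : J → Tw)
  (μ ν : ℕ → m.Q → ℝ), Hy (m := m) M a g μ ν → ∃ (y : J → R4 → R4) (pq : J → ℝ → ℝ × ℝ),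
    (∀ᶠ j in m.F, (m.t0 j, m.R1) ∈ m.D j → tau m.H (y j) (m.t0 j, m.R1, 1, 1) = 0) ∧
    ∀ n, ∀ᶠ k in atTop, ∀ θ, ∃ C, 0 ≤ C ∧ ∀ᶠ q in ph m.sF k θ, ∀ x ∈ m.sl.K SB q,
      At M a m.H n (g (m.ka q)) (y (m.ka q)) (pq (m.ka q)) x (C * μ k q) (C * ν k q)

/-- The parameters move slowly. -/
def Lp (M a : ℝ) (H : ℝ → ℝ) (k : ℕ) (D : Set (ℝ × ℝ)) (g : Tw) (R1 C : ℝ) (pq : ℝ → ℝ × ℝ) : Prop :=
  ∀ t t' μ ν, (t, R1) ∈ D → (t', R1) ∈ D → Sz M a H k D g R1 (uIcc t t') μ ν →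
    ‖pq t - pq t'‖ ≤ C * μ * |t - t'|

/-- NY: the chart and the parameters of the slices. -/
def NY : Prop := ∀ (M a r1 R1 ti : ℝ) (H : ℝ → ℝ) (n : ℕ), a ≠ 0 → |a| < M → rm M a < r1 →
  r1 + 1 ≤ R1 → ContDiff ℝ ∞ H → ∃ k, ∃ C : ℝ → ℝ, Monotone C ∧ (∀ ρ, 1 ≤ C ρ) ∧ ∀ Rs,
    ∃ E1 > 0, ∀ D g, ∀ E ∈ Icc 0 E1, Rg r1 R1 Rs ti D →
      (∀ x ∈ Om D, ∃ W, Lv g W ∧ pj (shr H x) ∈ W) →
      (∀ x ∈ Om D, x.2.1 = R1 → Ad M g eT (pj (shr H x)) ∧ zN M g eT (pj (shr H x)) = eT) →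
      Sz M a H k D g Rs univ E E →
      ∃ y pq, Ny M a H k D g R1 ti n C y pq ∧ Lp M a H k D g R1 (C R1) pq

/-- The three parts. -/
def NF : Prop := RIN → RIG → NYF
def FAM : Prop := NYF → NY
def NP : Prop := NY → NC

theorem nc_of (h1 : NF) (h2 : FAM) (h3 : NP) (a : RIN) (b : RIG) : NC := h3 (h2 (h1 a b))

end Vale.Agent.P354NC
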