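import Vale.Agent.P354NC.Defs

/-!
FAM: the family of all small regions and of all slices.
-/

open scoped ContDiff
open Set Filter Topology

noncomputable section

namespace Vale.Agent.P354NC.Fm

open Vale.Agent.P354n (R4)
open Vale.Agent.P354I (rm)
open Vale.Agent.P354XG (E6 Wgt)
open Vale.Agent.P354XD (pj nq)
open Vale.Agent.P354MG
open Vale.Agent.P354XE (Tw gin eT)
open Vale.Agent.P354XV (Lv)
open Vale.Agent.P354XO (Om sc pj_sc)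
open Vale.Agent.P354YN (Ad zN)
open Vale.Agent.P354YA (eta_mono)
open Vale.Agent.P354RI (Dm SA SB sa_ne sb_sa one_sb)
open Vale.Agent.P354RN (shr Hy)

theorem bdm {N m : ℕ} {g : Tw} {p : R4} {c c' : ℝ} (b : P354XE.Bd m g p c) (hN : N ≤ m)
    (hc : c ≤ c') : P354XE.Bd N g p c' := fun k hk v w =>
  (b k (hk.trans hN) v w).trans (mul_le_mul_of_nonneg_right hc (by positivity))

/-- For all radii, and for small sizes. -/
def fS {A : Type} (S : ℝ → ℝ → A → Prop) : Filter A :=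
  ⨆ R, (𝓝[≥] (0 : ℝ)).bind fun E => 𝓟 {x | S R E x}

theorem ev_fS {A : Type} {S : ℝ → ℝ → A → Prop} {P : A → Prop} :
    (∀ᶠ x in fS S, P x) ↔ ∀ R, ∀ᶠ E in 𝓝[≥] (0 : ℝ), ∀ x, S R E x → P x := by
  simp only [fS, eventually_iSup, eventually_bind, eventually_principal, mem_setOf_eq]

section sz
variable {M a : ℝ} {H : ℝ → ℝ} {k k' : ℕ} {D : Set (ℝ × ℝ)} {g : Tw} {ρ ρ' μ ν E : ℝ}
  {I I' : Set ℝ}

theorem sz_mono (h : Sz M a H k D g ρ I μ ν) (hk : k' ≤ k) (hρ : ρ' ≤ ρ) (hI : I' ⊆ I) :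
    Sz M a H k' D g ρ' I' μ ν :=
  ⟨h.1, h.2.1, fun x m t =>
    have e := h.2.2 x ⟨m.1, m.2.1, m.2.2.trans hρ⟩ (hI t)
    ⟨(eta_mono hk g _).trans e.1, bdm e.2 hk le_rfl⟩⟩

theorem sz_min (h : Sz M a H k D g ρ I μ ν) (h' : Sz M a H k D g ρ' univ E E) :
    Sz M a H k D g (min ρ ρ') I (min μ E) (min ν E) := by
  refine ⟨le_min h.1 h'.1, min_le_min h.2.1 le_rfl, fun x m t => ?_⟩
  have e := h.2.2 x ⟨m.1, m.2.1, m.2.2.trans (min_le_left _ _)⟩ t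
  have e' := h'.2.2 x ⟨m.1, m.2.1, m.2.2.trans (min_le_right _ _)⟩ trivial
  constructor
  · rcases min_choice μ E with c | c <;> rw [c]
    exacts [e.1, e'.1]
  · rcases min_choice ν E with c | c <;> rw [c]
    exacts [e.2, e'.2]

theorem at_mono {n : ℕ} {y : R4 → R4} {pq : ℝ → ℝ × ℝ} {x : E6} {μ' ν' : ℝ}
    (h : At M a H n g y pq x μ ν) (h1 : μ ≤ μ') (h2 : ν ≤ ν') : At M a H n g y pq x μ' ν' :=
  ⟨h.id.mono le_rfl h2, h.par.trans h2, bdm h.met le_rfl h1,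
    h.dp.imp fun _ d => ⟨d.1, d.2.trans h1⟩, h.dt.1, h.dt.2.trans h2⟩

end sz

variable (M r1 R1 ti : ℝ) (H : ℝ → ℝ)

/-- The regions. -/
structure Jx where
  Rs : ℝ
  D : Set (ℝ × ℝ)
  g : Tw
  t0 : ℝ
  rg : Rg r1 R1 Rs ti D
  vac : ∀ x ∈ Om D, ∃ W, Lv g W ∧ pj (shr H x) ∈ W
  tube : ∀ x ∈ Om D, x.2.1 = R1 → Ad M g eT (pj (shr H x)) ∧ zN M g eT (pj (shr H x)) = eT
  t1 : (t0, R1) ∈ D

/-- The slices. -/
structure Qx where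
  j : Jx M r1 R1 ti H
  t : ℝ
  ρ : ℝ
  μ : ℝ
  ν : ℝ
  mem : (t, R1) ∈ j.D
  le : R1 ≤ ρ
  nn : 0 ≤ μ ∧ μ ≤ ν

variable {M r1 R1 ti H} (a : ℝ)

def SJ (k : ℕ) (R E : ℝ) (j : Jx M r1 R1 ti H) : Prop :=
  j.Rs = R ∧ Sz M a H k j.D j.g R univ E E
def SQ (k θ : ℕ) (R E : ℝ) (q : Qx M r1 R1 ti H) : Prop :=
  ⌈q.ρ⌉₊ = θ ∧ SJ a k R E q.j ∧ Sz M a H k q.j.D q.j.g q.ρ {q.t} q.μ q.ν ∧ q.ν ≤ E

variable (M r1 R1 ti H)

def dm : Dm (Jx M r1 R1 ti H) where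
  F := atTop.bind fun k => fS (SJ a k)
  D j := j.D
  t0 j := j.t0
  R1 := R1
  H := H
  Q := Qx M r1 R1 ti H
  sF := atTop.bind fun k => ⨆ θ, fS (SQ a k θ)
  ka q := q.j
  tt q := q.t
  I q := {r | (q.t, r) ∈ q.j.D ∧ r ≤ q.ρ}

theorem anti (θ k k' : ℕ) (h : k ≤ k') :
    fS (SQ (M := M) (r1 := r1) (R1 := R1) (ti := ti) (H := H) a k' θ) ≤ fS (SQ a k θ) :=
  fun _ m => ev_fS.2 fun R => (ev_fS.1 m R).mono fun _ e q s => e q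
    ⟨s.1, ⟨s.2.1.1, sz_mono s.2.1.2 h le_rfl le_rfl⟩, sz_mono s.2.2.1 h le_rfl le_rfl, s.2.2.2⟩

theorem ev_sF {P : Qx M r1 R1 ti H → Prop} : (∀ᶠ q in (dm M r1 R1 ti H a).sF, P q) ↔
    ∀ᶠ k in atTop, ∀ θ, ∀ᶠ q in fS (SQ a k θ), P q := by
  simp only [dm, eventually_bind, eventually_iSup]

@[reducible] def gq : Gr (dm M r1 R1 ti H a).sF where
  Th := ℕ
  th q := ⌈q.ρ⌉₊
  ph k θ := fS (SQ a k θ)
  anti := anti M r1 R1 ti H a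
  th_eq _ _ := ev_fS.2 fun _ => Eventually.of_forall fun _ _ s => s.1
  ev _ := (ev_sF M r1 R1 ti H a).trans ⟨fun h => h.exists, fun ⟨k, h⟩ =>
    (eventually_ge_atTop k).mono fun k' e θ => (h θ).filter_mono (anti M r1 R1 ti H a θ k k' e)⟩

variable {M r1 R1 ti H a}

theorem rg_R1 {Rs : ℝ} {D : Set (ℝ × ℝ)} (h : Rg r1 R1 Rs ti D) {p : ℝ × ℝ} (m : p ∈ D) :
    (p.1, R1) ∈ D := h.star p m R1 left_mem_uIcc

theorem rg_t {Rs t t' s r : ℝ} {D : Set (ℝ × ℝ)} (h : Rg r1 R1 Rs ti D) (m : (t, r) ∈ D)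
    (m' : (t', r) ∈ D) (hs : s ∈ uIcc t t') : (s, r) ∈ D := by
  rcases mem_uIcc.1 hs with e | e
  · exact h.down _ m' s ⟨(h.box _ m).1.trans_le e.1, e.2⟩
  · exact h.down _ m s ⟨(h.box _ m').1.trans_le e.1, e.2⟩

theorem ok (h0 : 0 < r1) (hH : ContDiff ℝ ∞ H) :
    @Dm.Ok _ (dm M r1 R1 ti H a) (gq M r1 R1 ti H a) := by
  let _ := gq M r1 R1 ti H a
  refine ⟨⟨fun P m => ?_, Eventually.of_forall fun q r m => m.1⟩, hH,
    Eventually.of_forall fun j => ⟨j.rg.op, fun p m => ⟨h0.trans (j.rg.box p m).2.1, ?_, ?_⟩⟩,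
    fun P m => ?_, Eventually.of_forall fun k θ => ⟨r1, (show ℕ from θ), h0, ev_fS.2 fun R =>
      Eventually.of_forall fun E q s => ⟨⟨q.mem, q.le⟩, fun r m => ⟨(q.j.rg.box _ m.1).2.1.le,
        m.2.trans (s.1 ▸ Nat.le_ceil q.ρ)⟩, fun r m u hu => ?_⟩⟩⟩
  · have m' : ∀ᶠ k in atTop, ∀ᶠ j in fS (SJ a k), j ∈ P := m
    exact (ev_sF M r1 R1 ti H a).2 (m'.mono fun k e θ => ev_fS.2 fun R =>
      (ev_fS.1 e R).mono fun E e q s => e _ s.2.1)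
  · rintro _ ⟨b, c, hb, hc, e, rfl⟩
    have k := j.rg.star p m (b * R1 + c * p.2) (segment_eq_uIcc R1 p.2 ▸ ⟨b, c, hb, hc, e, rfl⟩)
    have k2 : b * p.1 + c * p.1 = p.1 := by rw [← add_mul, e, one_mul]
    show (b * p.1 + c * p.1, b * R1 + c * p.2) ∈ j.D
    rwa [k2]
  · rintro _ ⟨b, c, hb, hc, e, rfl⟩
    have k := rg_t j.rg j.t1 (rg_R1 j.rg m) (s := b * j.t0 + c * p.1)
      (segment_eq_uIcc j.t0 p.1 ▸ ⟨b, c, hb, hc, e, rfl⟩)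
    have k2 : b * R1 + c * R1 = R1 := by rw [← add_mul, e, one_mul]
    show (b * j.t0 + c * p.1, b * R1 + c * R1) ∈ j.D
    rwa [k2]
  · refine ((ev_sF M r1 R1 ti H a).1 m).mono fun k e => ev_fS.2 fun R =>
      (ev_fS.1 (e ⌈R⌉₊) R).mono fun E e j s p hp => ?_
    obtain ⟨rfl, s⟩ := s
    exact ⟨⟨j, p.1, j.Rs, E, E, rg_R1 j.rg hp, (j.rg.box _ j.t1).2.2.le, s.1, le_rfl⟩,
      e _ ⟨rfl, ⟨rfl, s⟩, sz_mono s le_rfl le_rfl (subset_univ _), le_rfl⟩, rfl, rfl, hp,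
      (j.rg.box p hp).2.2.le⟩
  · rw [segment_eq_uIcc] at hu
    exact ⟨q.j.rg.star _ m.1 u hu, (mem_uIcc.1 hu).elim (fun e => e.2.trans m.2)
      fun e => e.2.trans q.le⟩

theorem un_of {q : Qx M r1 R1 ti H} {x : E6} (m : x ∈ (dm M r1 R1 ti H a).sl.K SA q)
    (n : nq x = 1) : x ∈ Un q.j.D q.ρ ∧ x.1 ∈ ({q.t} : Set ℝ) := by
  have e : x.1 = q.t := m.1
  exact ⟨⟨⟨e ▸ m.2.1.1, sa_ne m.2.2⟩, n, m.2.1.2⟩, e⟩

theorem hy (a0 : a ≠ 0) (hM : |a| < M) :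
    @Hy _ (dm M r1 R1 ti H a) (gq M r1 R1 ti H a) M a (fun j => j.g) (fun _ q => q.μ)
      fun _ q => q.ν := by
  let _ := gq M r1 R1 ti H a
  refine ⟨a0, (abs_nonneg a).trans_lt hM, ⟨fun _ q => q.nn.1, fun _ _ _ _ => le_rfl⟩,
    ⟨fun _ q => q.nn.1.trans q.nn.2, fun _ _ _ _ => le_rfl⟩, Eventually.of_forall fun k θ => ?_,
    le_of_le fun _ q => q.nn.2, Eventually.of_forall fun j => j.vac,
    ev_gr.2 ⟨0, fun n k e θ => ⟨1, zero_le_one, ev_fS.2 fun R => Eventually.of_forall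
      fun E q s x m u => ?_⟩⟩,
    ev_gr.2 ⟨0, fun n k e θ => ⟨1, zero_le_one, ev_fS.2 fun R => Eventually.of_forall
      fun E q s x m u => ?_⟩⟩,
    Eventually.of_forall fun j t m => j.tube (t, R1, 1, 1) ⟨m, by simp⟩ rfl⟩
  · refine Metric.tendsto_nhds.2 fun ε hε => ev_fS.2 fun R =>
      Eventually.mono (p := fun E => E < ε) (mem_nhdsWithin_of_mem_nhds (Iio_mem_nhds hε))
        fun E e q s => ?_
    rw [dist_zero_right, Real.norm_of_nonneg (q.nn.1.trans q.nn.2)]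
    exact s.2.2.2.trans_lt e
  · exact bdm (s.2.2.1.2.2 x (un_of m u).1 (un_of m u).2).2 e (one_mul _).ge
  · rw [one_mul]
    exact (eta_mono e _ _).trans (s.2.2.1.2.2 x (un_of m u).1 (un_of m u).2).1

theorem unit {x : E6} (h : x.2.2 ≠ 0) : ∃ w : ℂ × ℂ, ‖w‖ = 1 ∧
    pj (shr H (x.1, x.2.1, w)) = pj (shr H x) := by
  have n : 0 < ‖x.2.2‖ := norm_pos_iff.2 h
  have z : ((‖x.2.2‖⁻¹ : ℝ) : ℂ) ≠ 0 := by exact_mod_cast (inv_pos.2 n).ne'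
  refine ⟨((‖x.2.2‖⁻¹ : ℝ) : ℂ) • x.2.2, ?_, pj_sc z (shr H x)⟩
  rw [norm_smul, Complex.norm_real, norm_inv, norm_norm, inv_mul_cancel₀ n.ne']

theorem sb_of {w : ℂ × ℂ} (h : ‖w‖ = 1) : w ∈ SB := ⟨by rw [h]; norm_num, by rw [h]; norm_num⟩

/-- The time function along a path from the base point. -/
theorem walk {f : E6 → ℝ} {t0 t r ρ L : ℝ} {w : ℂ × ℂ} (hw : ‖w‖ = 1) (hL : 0 ≤ L)
    (h0 : f (t0, R1, 1, 1) = 0) (hr : |r - R1| ≤ ρ)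
    (h : ∀ x : E6, (x.1 ∈ uIcc t0 t ∧ x.2.1 = R1 ∨ x.1 = t ∧ x.2.1 ∈ uIcc R1 r) → ‖x.2.2‖ = 1 →
      DifferentiableAt ℝ f x ∧ ‖fderiv ℝ f x‖ ≤ L) :
    |f (t, r, w)| ≤ L * (|t - t0| + ρ + 4) := by
  have st : ∀ (I I' : Set ℝ) (S : Set (ℂ × ℂ)), Convex ℝ I → Convex ℝ I' → Convex ℝ S →
      (∀ s ∈ I, ∀ u ∈ I', s ∈ uIcc t0 t ∧ u = R1 ∨ s = t ∧ u ∈ uIcc R1 r) →
      (∀ v ∈ S, ‖v‖ = 1) → ∀ x ∈ I ×ˢ I' ×ˢ S, ∀ y ∈ I ×ˢ I' ×ˢ S, ∀ c, ‖y - x‖ ≤ c →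
      |f y - f x| ≤ L * c := fun I I' S c1 c2 c3 e1 e2 x hx y hy c hc =>
    ((c1.prod (c2.prod c3)).norm_image_sub_le_of_norm_fderiv_le (𝕜 := ℝ)
      (fun z m => (h z (e1 _ m.1 _ m.2.1) (e2 _ m.2.2)).1)
      (fun z m => (h z (e1 _ m.1 _ m.2.1) (e2 _ m.2.2)).2) hx hy).trans
      (mul_le_mul_of_nonneg_left hc hL)
  have s1 := st (uIcc t0 t) {R1} {(1, 1)} (convex_uIcc _ _) (convex_singleton _)
    (convex_singleton _) (fun s m u e => Or.inl ⟨m, e⟩) (fun v e => by rw [e]; simp)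
    (t0, R1, 1, 1) ⟨left_mem_uIcc, rfl, rfl⟩ (t, R1, 1, 1) ⟨right_mem_uIcc, rfl, rfl⟩ |t - t0|
    (by simp)
  have s2 := st {t} (uIcc R1 r) {(1, 1)} (convex_singleton _) (convex_uIcc _ _)
    (convex_singleton _) (fun s m u e => Or.inr ⟨m, e⟩) (fun v e => by rw [e]; simp)
    (t, R1, 1, 1) ⟨rfl, left_mem_uIcc, rfl⟩ (t, r, 1, 1) ⟨rfl, right_mem_uIcc, rfl⟩ ρ
    (by simpa using hr)
  have st2 : ∀ S : Set (ℂ × ℂ), Convex ℝ S → (∀ v ∈ S, ‖v‖ = 1) → ∀ v ∈ S, ∀ v' ∈ S,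
      |f (t, r, v') - f (t, r, v)| ≤ L * 2 := fun S c e v m v' m' =>
    st {t} {r} S (convex_singleton _) (convex_singleton _) c
      (fun s m u e => Or.inr ⟨m, e ▸ right_mem_uIcc⟩) e (t, r, v) ⟨rfl, rfl, m⟩ (t, r, v')
      ⟨rfl, rfl, m'⟩ 2 (by
        have := norm_sub_le v' v
        rw [e v m, e v' m'] at this
        simpa [one_add_one_eq_two] using this)
  have cb := convex_closedBall (0 : ℂ) 1
  have L1 : ∀ z : ℂ, ‖z‖ = 1 → ∀ v ∈ ({z} : Set ℂ) ×ˢ Metric.closedBall (0 : ℂ) 1, ‖v‖ = 1 :=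
    fun z e v m => by
      rw [Prod.norm_def, m.1, e]
      exact max_eq_left (mem_closedBall_zero_iff.1 m.2)
  have L2 : ∀ z : ℂ, ‖z‖ = 1 → ∀ v ∈ Metric.closedBall (0 : ℂ) 1 ×ˢ ({z} : Set ℂ), ‖v‖ = 1 :=
    fun z e v m => by
      rw [Prod.norm_def, m.2, e]
      exact max_eq_right (mem_closedBall_zero_iff.1 m.1)
  have o : (1 : ℂ) ∈ Metric.closedBall (0 : ℂ) 1 := by simp
  have w1 : w.1 ∈ Metric.closedBall (0 : ℂ) 1 :=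
    mem_closedBall_zero_iff.2 (hw ▸ norm_fst_le w)
  have w2 : w.2 ∈ Metric.closedBall (0 : ℂ) 1 :=
    mem_closedBall_zero_iff.2 (hw ▸ norm_snd_le w)
  have s3 : ∃ v, |f (t, r, v) - f (t, r, 1, 1)| ≤ L * 2 ∧ |f (t, r, w) - f (t, r, v)| ≤ L * 2 := by
    rcases max_choice ‖w.1‖ ‖w.2‖ with e | e
    · exact ⟨(w.1, 1), st2 _ (cb.prod (convex_singleton _)) (L2 1 norm_one) (1, 1) ⟨o, rfl⟩
        (w.1, 1) ⟨w1, rfl⟩, st2 _ ((convex_singleton _).prod cb) (L1 w.1 (e.symm.trans hw))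
        (w.1, 1) ⟨rfl, o⟩ w ⟨rfl, w2⟩⟩
    · exact ⟨(1, w.2), st2 _ ((convex_singleton _).prod cb) (L1 1 norm_one) (1, 1) ⟨rfl, o⟩
        (1, w.2) ⟨rfl, w2⟩, st2 _ (cb.prod (convex_singleton _)) (L2 w.2 (e.symm.trans hw))
        (1, w.2) ⟨o, rfl⟩ w ⟨w1, rfl⟩⟩
  obtain ⟨v, s3, s4⟩ := s3
  rw [h0] at s1
  rw [abs_le] at s1 s2 s3 s4 ⊢
  constructor <;> nlinarith [s1.1, s1.2, s2.1, s2.2, s3.1, s3.2, s4.1, s4.2]

theorem fam : FAM := by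
  intro nyf M a r1 R1 ti H n a0 hM h1 h2 hH
  have h0 : 0 < r1 := lt_of_le_of_lt (sub_nonneg.2 (Real.sqrt_le_iff.2
    ⟨(abs_nonneg a).trans hM.le, by nlinarith [sq_nonneg a]⟩)) h1
  obtain ⟨y, pq, e0, e1⟩ := @nyf _ (dm M r1 R1 ti H a) (gq M r1 R1 ti H a) (ok h0 hH) M a _ _ _
    (hy a0 hM)
  have e0' : ∀ᶠ k in atTop, ∀ᶠ j in fS (SJ (M := M) (r1 := r1) (R1 := R1) (ti := ti) (H := H) a k),
      (j.t0, R1) ∈ j.D → tau H (y j) (j.t0, R1, 1, 1) = 0 := e0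
  obtain ⟨k, k0, k1⟩ := (e0'.and (e1 n)).exists
  choose C C0 hC using k1
  have ne : ∀ i : ℕ, (Finset.range (i + 1)).Nonempty := fun i => ⟨0, by simp⟩
  set Cm : ℝ → ℝ := fun ρ => max 1 ((Finset.range (⌈ρ⌉₊ + 1)).sup' (ne _) fun i => C i) with hCm
  have Cmono : Monotone Cm := fun ρ σ l => max_le_max le_rfl (Finset.sup'_mono _
    (Finset.range_mono (by have := Nat.ceil_mono l; omega)) _)
  have C1 : ∀ ρ, 1 ≤ Cm ρ := fun _ => le_max_left _ _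
  have C2 : ∀ ρ, C ⌈ρ⌉₊ ≤ Cm ρ := fun ρ =>
    le_max_of_le_right (Finset.le_sup' (fun i : ℕ => C i) (by simp))
  have C3 : ∀ ρ, Cm ρ ≤ (max ρ 0 + 5) * Cm ρ := fun ρ => by
    nlinarith [C1 ρ, le_max_right ρ 0]
  refine ⟨k, fun ρ => (max ρ 0 + 5) * Cm ρ, fun ρ σ l => mul_le_mul
    (by linarith [max_le_max_right 0 l]) (Cmono l) (by linarith [C1 ρ])
    (by linarith [le_max_right σ 0]), fun ρ => (C1 ρ).trans (C3 ρ), fun Rs => ?_⟩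
  have v := (ev_fS.1 k0 Rs).and ((eventually_all_finset (Finset.range (⌈Rs⌉₊ + 1))).2
    fun θ _ => ev_fS.1 (hC θ) Rs)
  obtain ⟨E1, p1, v⟩ := (nhdsGE_basis_Icc (a := (0 : ℝ))).eventually_iff.1 v
  refine ⟨E1, p1, fun D g E hE rg vac tube sz => ?_⟩
  rcases D.eq_empty_or_nonempty with rfl | ⟨p, hp⟩
  · exact ⟨id, 0, ⟨fun _ _ _ m => m.1.elim, fun _ _ _ m => m.1.elim⟩, fun _ _ _ _ m => m.elim⟩
  have b0 := (rg.box p hp).1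
  set j : Jx M r1 R1 ti H := ⟨Rs, D, g, min p.1 (ti + 1), rg, vac, tube,
    rg.down _ (rg_R1 rg hp) _ ⟨lt_min b0 (by linarith), min_le_left _ _⟩⟩ with hj
  obtain ⟨v0, v1⟩ := v hE
  have key : ∀ ρ ≥ R1, ∀ x : E6, (x.1, x.2.1) ∈ D → x.2.1 ≤ ρ → ‖x.2.2‖ = 1 → ∀ μ ν,
      Sz M a H k D g ρ {x.1} μ ν → At M a H n g (y j) (pq j) x (Cm ρ * μ) (Cm ρ * ν) :=
    fun ρ hρ x m l u μ ν s => by
      have s' := sz_min s sz
      have c := (C2 _).trans (Cmono (min_le_left ρ Rs))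
      have e := v1 ⌈min ρ Rs⌉₊ (Finset.mem_range.2 (Nat.lt_succ_of_le
        (Nat.ceil_mono (min_le_right _ _)))) ⟨j, x.1, min ρ Rs, min μ E, min ν E, rg_R1 rg m,
          le_min hρ (rg.box _ j.t1).2.2.le, s'.1, s'.2.1⟩ ⟨rfl, ⟨rfl, sz⟩, s', min_le_right _ _⟩ x
        ⟨rfl, ⟨m, le_min l (rg.box _ m).2.2.le⟩, sb_of u⟩
      exact at_mono e (mul_le_mul c (min_le_left _ _) s'.1 (by linarith [C1 ρ]))
        (mul_le_mul c (min_le_left _ _) (s'.1.trans s'.2.1) (by linarith [C1 ρ]))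
  refine ⟨y j, pq j, ⟨fun ρ hρ x m l μ ν s => ?_, fun ρ hρ x m l ν s => ?_⟩,
    fun t t' μ ν m m' s => ?_⟩
  · obtain ⟨w, u, e⟩ := unit (H := H) m.2
    have c := at_mono (key ρ hρ (x.1, x.2.1, w) m.1 l u μ ν s)
      (mul_le_mul_of_nonneg_right (C3 ρ) s.1) (mul_le_mul_of_nonneg_right (C3 ρ) (s.1.trans s.2.1))
    exact ⟨e ▸ c.id, c.par, e ▸ c.met⟩
  · obtain ⟨w, u, e⟩ := unit (H := H) m.2
    obtain ⟨x1, x2, -⟩ := rg.box _ m.1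
    have t1 : ti < j.t0 := (rg.box _ j.t1).1
    have t2 : j.t0 ≤ ti + 1 := min_le_right _ _
    have L0 : 0 ≤ Cm ρ * ν := mul_nonneg (by linarith [C1 ρ]) s.1
    have c := walk (f := tau H (y j)) (t0 := j.t0) (t := x.1) (r := x.2.1) (ρ := ρ) u L0
      (v0 j ⟨rfl, sz⟩ j.t1) (abs_le.2 ⟨by linarith, by linarith⟩) (by
        rintro ⟨t, r, w⟩ (⟨c1, rfl⟩ | ⟨rfl, c2⟩) u
        · refine (key ρ hρ _ (rg_t rg j.t1 (rg_R1 rg m.1) c1) hρ u ν ν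
            (sz_mono s le_rfl le_rfl (singleton_subset_iff.2 ?_))).dt
          rcases mem_uIcc.1 c1 with c | c
          · exact c.2.trans (by linarith)
          · exact c.2.trans (by linarith)
        · refine (key ρ hρ _ (rg.star _ m.1 r c2) ?_ u ν ν
            (sz_mono s le_rfl le_rfl (singleton_subset_iff.2 ?_))).dt
          · exact (mem_uIcc.1 c2).elim (fun c => c.2.trans l) fun c => c.2.trans hρ
          · exact (lt_add_one (_ : ℝ)).le)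
    rw [tau, e] at c
    refine c.trans ?_
    have d : |x.1 - j.t0| ≤ 1 + (x.1 - ti) := abs_le.2 ⟨by linarith, by linarith⟩
    have d2 : |x.1 - j.t0| + ρ + 4 ≤ (max ρ 0 + 5) * (1 + (x.1 - ti)) := by
      nlinarith [le_max_left ρ 0, le_max_right ρ 0]
    nlinarith [mul_le_mul_of_nonneg_left d2 L0]
  · have c : ∀ u ∈ uIcc t t', ∃ d, HasDerivAt (pq j) d u ∧ ‖d‖ ≤ Cm R1 * μ := fun u hu =>
      (key R1 le_rfl (u, R1, 1, 1) (rg_t rg m m' hu) le_rfl (by simp) μ ν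
        (sz_mono s le_rfl le_rfl (singleton_subset_iff.2 hu))).dp
    have d := (convex_uIcc t t').norm_image_sub_le_of_norm_deriv_le (f := pq j)
      (C := Cm R1 * μ) (fun u hu => (c u hu).elim fun _ e => e.1.differentiableAt)
      (fun u hu => (c u hu).elim fun _ e => e.1.deriv ▸ e.2) right_mem_uIcc left_mem_uIcc
    exact d.trans (mul_le_mul_of_nonneg_right (mul_le_mul_of_nonneg_right (C3 R1) s.1)
      (norm_nonneg _))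

end Vale.Agent.P354NC.Fm

theorem Vale.Agent.P354NC.fam : Vale.Agent.P354NC.FAM := Vale.Agent.P354NC.Fm.fam
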