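import Vale.Agent.P354NC.Defs
import Vale.Agent.P354NC.Alg
import Vale.Agent.P354RI.Ins

/-!
From the classes of germs to the bounds of jets on the base.
-/

set_option maxSynthPendingDepth 3

open scoped ContDiff
open Set Filter Topology

noncomputable section

namespace Vale.Agent.P354NC

open Vale.Agent.P354XG hiding Dom Dom0 Bd bdSub domI Keeps Low dom0_mk dom0_zero dom0_cst dom_of
  dom_zero dom_cst bd_alg dom_sum dom0_sum keeps_pd keeps_zero keeps_sum bd_closure dom_pb_aff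
  bd_fn bd_par Conn gron gron0 dom_of_sys dom_sub_ev0
open Vale.Agent.P354n (R4)
open Vale.Agent.P354RC (bs cv sum_bs)
open Vale.Agent.P354MG Vale.Agent.P354XR
open Vale.Agent.P354XD hiding Sml
open Vale.Agent.P354XE (Tw gin eT)
open Vale.Agent.P354YI (Jb jb_const ev_dif)
open Vale.Agent.P354YO (Sb)
open Vale.Agent.P354RI (Sl SB dg keeps_d)

theorem jb_sum {ι V : Type} [Fintype ι] [NormedAddCommGroup V] [NormedSpace ℝ V] {f : ι → R4 → ℝ}
    (v : ι → V) {x : R4} {n : ℕ} {c : ℝ} (s : ∀ i, ContDiffAt ℝ ∞ (f i) x)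
    (h : ∀ i, Jb n (f i) x c) : Jb n (fun y => ∑ i, f i y • v i) x ((∑ i, ‖v i‖) * c) := by
  generalize (Finset.univ : Finset ι) = t
  induction t using Finset.cons_induction with
  | empty => simpa using jb_const n (0 : V) x
  | cons i t hi ih =>
    simp only [Finset.sum_cons, add_mul]
    have := (h i).clm (ContinuousLinearMap.toSpanSingleton ℝ (v i)) (s i)
    rw [ContinuousLinearMap.norm_toSpanSingleton] at this
    exact this.add ih ((s i).smul contDiffAt_const)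
      (ContDiffAt.sum fun i _ => (s i).smul contDiffAt_const)

/-- A shift of the time. -/
theorem At.shift {M a : ℝ} {H : ℝ → ℝ} {n : ℕ} {g : Tw} {y : R4 → R4} {pq : ℝ → ℝ × ℝ} {x : E6}
    {μ ν : ℝ} (h : At M a H n g y pq x μ ν) (c : ℝ) :
    At M a H n g (fun p => y p + c • eT) pq x μ ν := by
  have e : tau H (fun p => y p + c • eT) = fun x => tau H y x + c := by
    funext x; simp [tau, eT]; ring
  refine ⟨⟨h.id.ev.mono fun _ k => k.add contDiffAt_const, by simpa using h.id.d,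
    by simpa [eT] using h.id.x⟩, h.par, ?_, h.dp, by simpa [e] using h.dt⟩
  have := h.met
  simpa only [P354XE.Bd, Pi.sub_apply, P354XE.pb, fderiv_add_const, P354YO.gin_st] using this

variable {J : Type} {F : Filter J} [Gr F] {K : J → Set E6} {μ : ℕ → J → ℝ} {M a : J → ℝ}
  {P Q : J → E6 → ℝ → Prop}

variable (F K μ) in
/-- P holds with the bound C μ. -/
def Ub (P : J → E6 → ℝ → Prop) : Prop :=
  ∀ᶠ k in atTop, ∀ θ, ∃ C, 0 ≤ C ∧ ∀ᶠ j in ph F k θ, ∀ x ∈ K j, P j x (C * μ k j)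

theorem Ub.imp (h : Ub F K μ P) {L : ℝ} (hL : 0 ≤ L)
    (e : ∀ᶠ j in F, ∀ x ∈ K j, ∀ c, P j x c → Q j x (L * c)) : Ub F K μ Q := by
  filter_upwards [h, evk e] with k h1 h2 θ
  obtain ⟨C, hC, h1⟩ := h1 θ
  exact ⟨L * C, mul_nonneg hL hC, (h1.and (h2 θ)).mono fun j h x hx =>
    mul_assoc L C _ ▸ h.2 x hx _ (h.1 x hx)⟩

theorem Ub.all {ι : Type} [Fintype ι] {P : ι → J → E6 → ℝ → Prop} (hμ : Wgt μ)
    (h : ∀ i, Ub F K μ (P i)) (m : ∀ i j x c c', c ≤ c' → P i j x c → P i j x c') :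
    Ub F K μ fun j x c => ∀ i, P i j x c := by
  filter_upwards [eventually_all.2 h] with k h θ
  choose C hC h using fun i => h i θ
  exact ⟨∑ i, C i, Finset.sum_nonneg fun i _ => hC i, (eventually_all.2 h).mono fun j h x hx i =>
    m i j x _ _ (mul_le_mul_of_nonneg_right (Finset.single_le_sum (fun i _ => hC i)
      (Finset.mem_univ i)) (hμ.nonneg k j)) (h i x hx)⟩

theorem Ub.and (hμ : Wgt μ) (h : Ub F K μ P) (h' : Ub F K μ Q)
    (m : ∀ j x c c', c ≤ c' → P j x c → P j x c') (m' : ∀ j x c c', c ≤ c' → Q j x c → Q j x c') :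
    Ub F K μ fun j x c => P j x c ∧ Q j x c :=
  (Ub.all (P := ![P, Q]) hμ (Fin.forall_fin_two.2 ⟨h, h'⟩) (Fin.forall_fin_two.2 ⟨m, m'⟩)).imp
    zero_le_one (.of_forall fun _ _ _ c k => (one_mul c).symm ▸ Fin.forall_fin_two.1 k)

theorem ub_val {u : Sm (nb F K)} {f : J × E6 → ℂ} (r : Rs u f) (h : Dom0 μ u) :
    Ub F K μ fun j x c => ‖f (j, x)‖ ≤ c :=
  Ub.imp (P := fun j x c => ‖rep u (j, x)‖ ≤ c) h zero_le_one
    ((ev_nb_on r).mono fun _ e x hx c k => by rwa [one_mul, ← e x hx])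

theorem dom_pd (hμ : Wgt μ) {u : Sm (nb F K)} (h : ∀ i, Dom μ ((hp _).d i u)) (v : E6) :
    Dom μ (pd v u) := by
  rw [(DFunLike.congr_fun (P354XO.vf_pd v).eq_z u).trans ((P354RI.cz (hp _)).vf_ap _ _)]
  refine dom_sum hμ _ fun i _ => Dom.bmul hμ ?_ (h i)
  rw [P354XO.z_lin, P354XO.pd_lin]
  exact bd_alg _

theorem ub_fd (hμ : Wgt μ) {u : Sm (nb F K)} {f : J × E6 → ℂ} (r : Rs u f)
    (h : ∀ v, Dom μ (pd v u)) :
    Ub F K μ fun j x c => DifferentiableAt ℝ (sl f j) x ∧ ‖fderiv ℝ (sl f j) x‖ ≤ c :=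
  (Ub.all hμ (fun i : Fin 2 × Fin 6 => ub_val (r.pd (![v1, v2] i.1 i.2)) (h _).dom0)
    fun _ _ _ _ _ l k => k.trans l).imp (L := 6) (by norm_num)
    ((ev_nb_on r.sm.diff).mono fun _ e x hx _ k =>
      ⟨e x hx, P354XO.norm_le6 (fun i => k (0, i)) fun i => k (1, i)⟩)

variable (r : Reg F K M a) (hμ : Wgt μ) (n : ℕ)
include r hμ

theorem dom_L {u : Sm (nb F K)} (h : ∀ i, Dom μ ((hp _).d i u)) (b : Fin 4) :
    Dom μ ((hp _).L b u) := L_mem r.hb (I := dg K hμ) (fun _ b _ => Dom.bmul hμ b) h b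

/-- JET. -/
theorem jet {f : J → R4 → ℝ} (s : SmB (nb F K) f) (h : Dom μ (pb (nb F K) f)) :
    Ub F K μ fun j x c => Jb n (f j) (pj x) c := by
  have o := r.pos.off
  induction n generalizing f with
  | zero => exact (ub_val (rs_pb o s) h.dom0).imp zero_le_one (.of_forall fun j x _ c k =>
      .of_zero (by simpa using k))
  | succ n ih =>
    have l : 0 ≤ ∑ i, ‖cv i‖ := by positivity
    refine ((ub_val (rs_pb o s) h.dom0).and hμ (Ub.all hμ (fun b => ih (s.db b)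
      (L_pb o s b ▸ dom_L r hμ (fun i => keeps_d hμ i h) b)) fun _ _ _ _ _ l k => k.mono le_rfl l)
      (fun _ _ _ _ l k => k.trans l) fun _ _ _ _ l k b => (k b).mono le_rfl l).imp
      (L := 1 + ∑ i, ‖cv i‖) (by positivity) ((ev_nb_on (eventually_all.2 s.db)).mono
        fun j e x hx c k => ?_)
    have c0 := mul_nonneg l (k.2 0).nonneg
    have k1 : ‖f j (pj x)‖ ≤ c := by simpa using k.1
    refine .succ (by linarith) (((jb_sum cv (e x hx) k.2).congr (.of_forall fun y =>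
      ContinuousLinearMap.ext fun v => ?_)).mono le_rfl (by linarith [(k.2 0).nonneg]))
    conv_lhs => rw [← sum_bs v]
    simp [db, mul_comm]

theorem ub_bd {h : J → Tw} (s : ∀ᶠ j in F, ∀ x ∈ K j, Sb (h j) (pj x))
    (s' : ∀ b d, SmB (nb F K) fun j => gc (h j) b d)
    (e : ∀ b d, Dom μ (pb (nb F K) fun j => gc (h j) b d)) :
    Ub F K μ fun j x c => P354XE.Bd n (h j) (pj x) c := by
  refine (Ub.all hμ (fun i : Fin 4 × Fin 4 => jet r hμ n (s' i.1 i.2) (e _ _))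
    fun _ _ _ _ _ l k => k.mono le_rfl l).imp
    (L := ∑ i : Fin 4 × Fin 4, ‖(cv i.1).smulRight (cv i.2)‖) (by positivity)
    (s.mono fun j s x hx c k i hi v w => ?_)
  have t := (jb_sum (fun i : Fin 4 × Fin 4 => (cv i.1).smulRight (cv i.2))
    (fun i => (s x hx).sm _ _) k).congr (g := tb (h j))
      (.of_forall fun y => (Fintype.sum_prod_type' _).symm)
  refine ((t.clm ((ContinuousLinearMap.apply ℝ ℝ w).comp (ContinuousLinearMap.apply ℝ _ v))
    (s x hx).cd).congr ((s x hx).ev v w) i hi).trans ?_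
  rw [mul_comm]
  exact mul_le_mul_of_nonneg_left (ContinuousLinearMap.opNorm_le_bound _ (by positivity)
    fun L => (L.le_opNorm₂ v w).trans_eq (by ring)) t.nonneg

theorem ub_nid {y : J → R4 → R4} (s : ∀ᶠ j in F, ∀ x ∈ K j, ∀ᶠ q in 𝓝 (pj x), ContDiffAt ℝ ∞ (y j) q)
    (s' : ∀ i, SmB (nb F K) fun j q => cv i (y j q - q))
    (e : ∀ i k, Dom μ ((hp (nb F K)).d k (pb _ fun j q => cv i (y j q - q))))
    (e0 : ∀ i, i ≠ 0 → Dom μ (pb (nb F K) fun j q => cv i (y j q - q))) :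
    Ub F K μ fun j x c => Nid n (y j) (pj x) c := by
  have o := r.pos.off
  let v := fun i : Fin 4 × Fin 4 => (cv i.1).smulRight (bs i.2)
  have l : 0 ≤ ∑ i, ‖v i‖ := by positivity
  refine ((Ub.all hμ (fun i : Fin 4 × Fin 4 => jet r hμ n ((s' i.2).db i.1)
    (L_pb o (s' i.2) i.1 ▸ dom_L r hμ (e i.2) i.1)) fun _ _ _ _ _ l k => k.mono le_rfl l).and hμ
    (Ub.all hμ (fun i : Fin 3 => ub_val (rs_pb o (s' i.succ)) (e0 _ i.succ_ne_zero).dom0)
      fun _ _ _ _ _ l k => k.trans l) (fun _ _ _ _ l k i => (k i).mono le_rfl l)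
      fun _ _ _ _ l k i => (k i).trans l).imp (L := 1 + ∑ i, ‖v i‖) (by positivity)
    ((s.and (ev_nb_on (eventually_all.2 fun i : Fin 4 × Fin 4 => (s' i.2).db i.1))).mono
      fun j s x hx c k => ?_)
  have c0 := (k.1 0).nonneg
  have c1 := mul_nonneg l c0
  refine ⟨s.1 x hx, ((jb_sum v (s.2 x hx) k.1).congr ((ev_dif (s.1 x hx).self_of_nhds).mono
    fun q hq => ContinuousLinearMap.ext fun w => ?_)).mono le_rfl (by linarith),
    le_trans ?_ (show c ≤ _ by linarith)⟩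
  · have e : ∀ i, fderiv ℝ (fun q => cv i (y j q - q)) q = _ := fun i =>
      ((cv i).hasFDerivAt.comp q (hq.hasFDerivAt.sub (hasFDerivAt_id q))).fderiv
    generalize fderiv ℝ (y j) q - ContinuousLinearMap.id ℝ R4 = T at e ⊢
    conv_lhs => rw [← sum_bs w, map_sum]
    simp only [db, e, v, Fintype.sum_prod_type, sum_apply, smul_apply,
      ContinuousLinearMap.smulRight_apply, map_smul,
      ContinuousLinearMap.comp_apply, smul_comm _ (cv _ w), ← Finset.smul_sum, sum_bs]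
  · have := fun i => (Complex.norm_real _).ge.trans (k.2 i)
    exact max_le (this 0) (max_le (this 1) (this 2))

omit r hμ in
theorem conn_sb {s : Sl J} (o : ∀ᶠ k in atTop, ∀ θ, s.Ok (ph F k θ)) : Conn F (s.K SB) s.x0 :=
  o.mono fun k h θ => by
    obtain ⟨ra, rb, -, h⟩ := h θ
    refine ⟨3, 8 + (rb - ra), h.mono fun j h ⟨t, r, z, w⟩ hy => ?_⟩
    have st : ∀ {r r' : ℝ} {w w' : ℂ × ℂ}, segment ℝ r r' ⊆ s.I j → segment ℝ w w' ⊆ SB →
        segment ℝ ((s.tt j, r, w) : E6) (s.tt j, r', w') ⊆ s.K SB j ∧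
          ‖((s.tt j, r', w') : E6) - (s.tt j, r, w)‖ ≤ 8 + (rb - ra) := fun {r r' w w'} e1 e2 => by
      refine ⟨fun x hx => ?_, ?_⟩
      · have k1 := Prod.segment_subset _ _ hx
        have k2 := Prod.segment_subset _ _ k1.2
        exact ⟨by simpa using k1.1, e1 k2.1, e2 k2.2⟩
      · have k1 := h.2.1 (e1 (left_mem_segment ℝ _ _))
        have k2 := h.2.1 (e1 (right_mem_segment ℝ _ _))
        have k3 := (norm_sub_le w' w).trans (add_le_add (e2 (right_mem_segment ℝ _ _)).2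
          (e2 (left_mem_segment ℝ _ _)).2)
        refine max_le ?_ (max_le (abs_le.2 ⟨?_, ?_⟩) (k3.trans ?_)) <;> norm_num <;>
          linarith [k1.1, k1.2, k2.1, k2.2]
    have sg : ∀ {z w w' : ℂ}, 1 / 4 ≤ ‖z‖ → ‖z‖ ≤ 4 → ‖w‖ ≤ 4 → ‖w'‖ ≤ 4 →
        segment ℝ (z, w) (z, w') ⊆ SB ∧ segment ℝ (w, z) (w', z) ⊆ SB := fun {z _ _} h1 h2 h3 h4 => by
      have c := fun x hx => (convexOn_norm convex_univ).le_on_segment (z := x) trivial trivial hx
        |>.trans (max_le h3 h4)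
      refine ⟨fun x hx => ?_, fun x hx => ?_⟩ <;> have k := Prod.segment_subset _ _ hx
      · have e : x.1 = z := by simpa using k.1
        exact ⟨(e ▸ h1).trans (norm_fst_le x), max_le (e ▸ h2) (c _ k.2)⟩
      · have e : x.2 = z := by simpa using k.2
        exact ⟨(e ▸ h1).trans (norm_snd_le x), max_le (c _ k.1) (e ▸ h2)⟩
    obtain rfl : t = s.tt j := hy.1
    have e : segment ℝ r r ⊆ s.I j := by simpa using hy.2.1
    have n1 : ‖z‖ ≤ 4 := (norm_fst_le (z, w)).trans hy.2.2.2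
    have n2 : ‖w‖ ≤ 4 := (norm_snd_le (z, w)).trans hy.2.2.2
    have a : 1 / 4 ≤ ‖(1 : ℂ)‖ := by norm_num
    have b : ‖(1 : ℂ)‖ ≤ 4 := by norm_num
    have s0 := st (h.2.2 r hy.2.1) (sg a b b b).1
    rcases le_max_iff.1 hy.2.2.1 with k | k
    · exact ⟨_, ⟨_, ⟨_, rfl, s0⟩, st e (sg a b b n1).2⟩, st e (sg k n1 b n2).1⟩
    · exact ⟨_, ⟨_, ⟨_, rfl, s0⟩, st e (sg a b b n2).1⟩, st e (sg k n2 b n1).2⟩

end Vale.Agent.P354NC
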