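import Vale.Agent.P354NC.Ny
import Vale.Agent.P354PA.Np

/-!
NC holds.
-/

namespace Vale.Agent.P354NC

theorem nc : P354MG.NC := P354PA.np ny_ok

end Vale.Agent.P354NC
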