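import Vale.Agent.P354NC.Shr
import Vale.Agent.P354YA.Boot

/-!
NF: the chart and the parameters of a family.
-/

open scoped ContDiff
open Set Filter Topology

noncomputable section

namespace Vale.Agent.P354NC

open Vale.Agent.P354XG hiding Dom Dom0 Bd bdSub domI Keeps Low dom0_mk dom0_zero dom0_cst dom_of
  dom_zero dom_cst bd_alg dom_sum dom0_sum keeps_pd keeps_zero keeps_sum bd_closure dom_pb_aff
  bd_fn bd_par Conn gron gron0 dom_of_sys dom_sub_ev0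
open Vale.Agent.P354MG hiding henG pb_sub
open Vale.Agent.P354XR Vale.Agent.P354RI Vale.Agent.P354RN
open Vale.Agent.P354XD hiding Sml
open Vale.Agent.P354RC (cv)
open Vale.Agent.P354XE (Tw gin eT)
open Vale.Agent.P354XO (Om Wts Eqv ch dn4 re_of)
open Vale.Agent.P354YA (KU)
open Vale.Agent.P354YO (Sb)

variable {J : Type}

theorem rs_ch {G : Filter (J × E6)} [Loc G] {v r x1 x2 : Sm G} (w : Wts v r x1 x2) (i : Fin 6) :
    Rs (![v, r, x1, x2, cj x1, cj x2] i) fun p => zc i (ch v r x1 x2 p) := by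
  fin_cases i
  exacts [(re_of w.cv).mono fun _ e => e.symm, (re_of w.cr).mono fun _ e => e.symm, rs_rep _,
    rs_rep _, rep_cj x1, rep_cj x2]

theorem re_fd {f : E6 → ℂ} {g : E6 → ℝ} {x : E6} {c : ℝ}
    (h : DifferentiableAt ℝ f x ∧ ‖fderiv ℝ f x‖ ≤ c) (e : g =ᶠ[𝓝 x] fun y => (f y).re) :
    DifferentiableAt ℝ g x ∧ ‖fderiv ℝ g x‖ ≤ c := by
  have d := (Complex.reCLM.hasFDerivAt.comp x h.1.hasFDerivAt).congr_of_eventuallyEq e
  refine ⟨d.differentiableAt, d.fderiv ▸ (ContinuousLinearMap.opNorm_comp_le _ _).trans ?_⟩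
  rw [Complex.reCLM_norm, one_mul]
  exact h.2

theorem re_dt {f : E6 → ℂ} {t c : ℝ} {w : ℝ × ℂ × ℂ}
    (h : DifferentiableAt ℝ f (t, w) ∧ ‖fderiv ℝ f (t, w)‖ ≤ c) :
    ∃ d, HasDerivAt (fun s => (f (s, w)).re) d t ∧ ‖d‖ ≤ c :=
  have k := re_fd h .rfl
  ⟨_, HasFDerivAt.comp_hasDerivAt (l := fun y => (f y).re) (f := fun s => (s, w)) t k.1.hasFDerivAt
    ((hasDerivAt_id t).prodMk (hasDerivAt_const t w)),
    (ContinuousLinearMap.le_opNorm _ _).trans (by simpa using k.2)⟩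

section ub
variable {F : Filter J} [Gr F] {K K' : J → Set E6} {μ : ℕ → J → ℝ} {P : J → E6 → ℝ → Prop}

theorem Ub.up (h : Ub F K μ P) (hμ : Wgt μ) (m : ∀ j x c c', c ≤ c' → P j x c → P j x c') :
    ∀ᶠ k in atTop, ∀ θ, ∀ᶠ C in atTop, ∀ᶠ j in ph F k θ, ∀ x ∈ K j, P j x (C * μ k j) :=
  h.mono fun k h θ => let ⟨C, _, h⟩ := h θ
    (eventually_ge_atTop C).mono fun _ l => h.mono fun j h x hx =>
      m j x _ _ (mul_le_mul_of_nonneg_right l (hμ.nonneg k j)) (h x hx)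

theorem Ub.pt (h : Ub F K μ P) (X : J → E6 → E6) (e : ∀ᶠ j in F, ∀ x ∈ K' j, X j x ∈ K j) :
    Ub F K' μ fun j x c => P j (X j x) c := by
  filter_upwards [h, evk e] with k h1 h2 θ
  exact (h1 θ).imp fun C h => ⟨h.1, (h.2.and (h2 θ)).mono fun j h x hx => h.1 _ (h.2 x hx)⟩

theorem ub_sub {M a : J → ℝ} (R : Reg F K M a) (hμ : Wgt μ) (n : ℕ) {g g' : J → Tw}
    (s : ∀ᶠ p in nb F K, Sb (g p.1) (pj p.2)) (s' : ∀ᶠ p in nb F K, Sb (g' p.1) (pj p.2))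
    (e : ∀ b d, Dom μ ((P354YA.sG (nb F K) g).g b d - (P354YA.sG (nb F K) g').g b d)) :
    Ub F K μ fun j x c => P354XE.Bd n (g j - g' j) (pj x) c := by
  have u := (s.and s').mono fun _ k => k.1.sub k.2
  refine ub_bd R hμ n (ev_nb_on u) (fun _ _ => u.mono fun _ k => k.sm _ _) fun b d => ?_
  have : Dom μ (_ * (_ * pb _ _ - _ * pb _ _)) := Dom.bmul hμ (bd_alg 2) (e b d)
  rwa [← mul_sub, ← mul_assoc, ← map_mul, show 2 * ((1 / 2 : ℝ) : ℂ) = 1 by norm_num, map_one,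
    one_mul, pb_sub R.pos.off (s.mono fun _ k => k.sm _ _) (s'.mono fun _ k => k.sm _ _)] at this

end ub

/-- The target of the new chart. -/
def UU : Set E6 := {y | 0 < y.2.1 ∧ y.2.2 ≠ 0}

theorem posU {F : Filter J} : Pos (nb F fun _ => UU) := ev_nb.2 (.of_forall fun _ _ hx =>
  ((isOpen_lt (g := fun y : E6 => y.2.1) continuous_const (by fun_prop)).inter
    (isOpen_ne_fun (f := fun y : E6 => y.2.2) (by fun_prop) continuous_const)).mem_nhds hx)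

variable {m : Dm J}

/-- The new chart as a function on the ingoing chart, and the values on the base curve. -/
def aI (t r x1 x2 : m.S) (j : J) (x : E6) : E6 := ch t r x1 x2 (j, shr (-m.H) x)
def vl (u : m.S) (j : J) (s : ℝ) : ℝ := (rep u (j, s, m.R1, 1, 1)).re

variable [Gr m.sF] {o : m.Ok} {M a : ℝ} {G : GHP m.S} {μ ν : ℕ → m.Q → ℝ}
  {t r x1 x2 Mh ah Ni sg : m.S} {y : Fin 6 → m.S} {K : KC m.S}

theorem par_dom {u : m.S} (c : cj u = u) (hμ : Wgt μ) (h : ∀ i, o.DB μ (m.h.d i u)) :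
    Dom μ (ps o u - cst fun q => vl u (m.ka q) (m.tt q)) := by
  have x := o.x0 one_sb
  have := (dom_sub_ev0 hμ (conn_sb o.sl) x (rx_pd o hμ h)).pb _ (tameX o) hμ
  rwa [map_sub, ev0_eq, Mp.pb_cst, (rs_cst _).ext (rs_cst fun q => vl u (m.ka q) (m.tt q))
    (ev_nb.2 ((x.and (ev_nb_on (((o.rxx sb_sa).rep u).and ((o.rxx sb_sa).ev (re_of c))))).mono
      fun q k _ _ => .of_forall fun _ => (k.2 _ k.1).1.trans (k.2 _ k.1).2.symm))] at this

theorem ub_vl {u : m.S} (hμ : Wgt μ) (h : ∀ i, o.DB μ (m.h.d i u)) : Ub m.sF (m.sl.K SB) μ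
    fun q x c => ∃ d, HasDerivAt (vl u (m.ka q)) d x.1 ∧ ‖d‖ ≤ c :=
  ((ub_fd hμ ((o.rxx sb_sa).rep u) (rx_pd o hμ h)).pt (fun q _ => m.sl.x0 q)
    ((o.x0 one_sb).mono fun _ k _ _ => k)).imp zero_le_one (.of_forall fun _ _ hx c k =>
      hx.1 ▸ (one_mul c).symm ▸ re_dt k)

variable (h : Out m o M a G μ ν t r x1 x2 Mh ah Ni sg y K)
include h

theorem eqv : ∀ᶠ p in m.G, p.2 ∈ Om (m.D p.1) ∧ Eqv (OI m p.1) (aI t r x1 x2 p.1) := by
  have n := h.hN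
  rw [h.hK, h.hy] at n
  have s := shr_cd o.H.neg
  refine o.ev ?_
  filter_upwards [o.op, h.w.eqv, ev_nb_on (P354XO.ch_sm (v := t) (r := r) (x1 := x1) (x2 := x2)),
    ev_nb_on (((((rs_rep x1).mul (rs_rep x1).cj).add ((rs_rep x2).mul (rs_rep x2).cj)).mul
      (rs_rep Ni)).eq (n ▸ rs_one))] with j h1 h2 h3 h4 x hx
  refine ⟨hx, ⟨(P354XO.om_open h1.1).preimage s.continuous, fun x hx => ⟨(h1.2 _ hx.1).1, hx.2⟩,
    fun x hx z hz => P354XO.om_sc hx hz⟩, fun x hx => (h3 _ hx).comp x s.contDiffAt,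
    fun x hx => h2 _ hx, fun x hx e => ?_⟩
  have := h4 _ hx
  simp only [show rep x1 _ = 0 from congrArg Prod.fst e, show rep x2 _ = 0 from congrArg Prod.snd e,
    zero_mul, add_zero, zero_ne_one] at this

theorem ny (i : Fin 6) (hi : i ≠ 0) : o.DB ν (y i - m.h.z i) := by
  have c : ∀ {u v : m.S}, o.DB ν (u - v) → o.DB ν (cj u - cj v) := fun k => by
    rw [Dm.Ok.DB, ← map_sub, o.rx_cj]; exact Dom.cj k
  rw [h.hy]
  fin_cases i
  exacts [absurd rfl hi, h.nr, h.n1, h.n2, o.is.z2 ▸ c h.n1, o.is.z3 ▸ c h.n2]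

theorem mpF (w : Wgt ν) (s : Sml m.sF ν) :
    Mp m.sF (KI m) (fun _ => UU) fun p => aI t r x1 x2 (m.ka p.1) p.2 := by
  have e := ev_ps o (eqv h)
  refine ⟨e.mono fun p k => k.2.sm _ k.1, evk_of ?_⟩
  filter_upwards [(ps_dom o w h.nr).dom0.ev_lt' s, regX o one_pos 0,
    evk (ev_nb_on ((rs_ps o ((rs_rep r).sub (rs_z 1))).and e))] with k h1 h2 h3 θ
  obtain ⟨c, hc, C, h2⟩ := h2 θ
  filter_upwards [h1 θ c hc, h2, h3 θ] with q k1 k2 k3 x hx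
  refine ⟨?_, (k3 x hx).2.2.ne _ (k3 x hx).2.1⟩
  have := (Complex.abs_re_le_norm _).trans_lt ((k3 x hx).1 ▸ k1 x hx)
  have : -c < (aI t r x1 x2 (m.ka q) x).2.1 - x.2.1 := (abs_lt.1 this).1
  linarith [(k2 x hx).2.2.2.1]

theorem ub_dt (w : Wgt ν) : Ub m.sF (m.sl.K SB) ν fun q x c =>
    DifferentiableAt ℝ (tau m.H (dn4 (aI t r x1 x2 (m.ka q)))) x ∧
      ‖fderiv ℝ (tau m.H (dn4 (aI t r x1 x2 (m.ka q)))) x‖ ≤ c :=
  (ub_fd w ((o.rxx sb_sa).rs (((rs_rep t).sub (rs_z 0)).sub (Dm.rs_rf o.H))) (rx_pd o w h.nt)).imp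
    zero_le_one ((ev_nb.1 ((o.rxx sb_sa).ev (eqv h))).mono fun q e x hx c k =>
      (one_mul c).symm ▸ re_fd k ((e x hx).mono fun x e => by
        rw [tau, e.2.pj_dn (by rw [OI, mem_preimage, shr_neg]; exact e.1), aI, shr_neg]
        simp [pj, ch, shr, zc, P354XG.sl, sub_sub]))

theorem s4 : ∀ᶠ p in GX m, ContDiffAt ℝ ∞ (dn4 (aI t r x1 x2 (m.ka p.1))) (pj p.2) :=
  (ev_ps o (eqv h)).mono fun _ e => e.2.sm_dn e.1

theorem e4 : ∀ᶠ p in GX m, dn4 (aI t r x1 x2 (m.ka p.1)) (pj p.2) =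
    pj (aI t r x1 x2 (m.ka p.1) p.2) := (ev_ps o (eqv h)).mono fun _ e => e.2.pj_dn e.1

variable (f : Mp m.sF (KI m) (fun _ => UU) fun p => aI t r x1 x2 (m.ka p.1) p.2)

theorem hz (i : Fin 6) : ps o (y i) = f.pb ((hp _).z i) := h.hy ▸ (rs_ps o (rs_ch h.w i)).ext
  ((f.rep_pb _).trans (f.ev (rs_z i))) .rfl

variable (w : Wt m.sF μ ν)
include w

omit h in
theorem par_cg {u : m.S} {c : ℝ} (e : cj u = u) (d : ∀ i, o.DB μ (m.h.d i u))
    (n : o.DB ν (u - algebraMap ℂ _ c)) :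
    (henG (KI m) w.wn w.s).Cg (cst fun q => vl u (m.ka q) (m.tt q)) (algebraMap ℂ _ c) := by
  have n := ps_dom o w.wn n
  rw [map_sub, AlgHom.commutes] at n
  exact ⟨bd_alg _, show Dom ν _ by
    simpa only [sub_sub_sub_cancel_left] using n.sub w.wn ((par_dom e w.wm d).mono w.le)⟩

variable (hM : 0 < M)
include hM

theorem nr : HB (hp (nb m.sF fun _ => UU)) ((bdSub m.sF (KI m)).comap f.pb) ∧
    PB (pm (nb m.sF fun _ => UU) (fun q => vl Mh (m.ka q) (m.tt q)) fun q => vl ah (m.ka q) (m.tt q))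
      ((bdSub m.sF (KI m)).comap f.pb) ∧ ∀ i, (i ≠ 0 → Dom ν (f.pb ((hp _).co i) - (hp _).co i)) ∧
        ∀ k, Dom ν ((hp _).d k (f.pb ((hp _).co i) - (hp _).co i)) := by
  have R := regX o hM a
  obtain ⟨h1, h2, h3⟩ := near (N := henG (KI m) w.wn w.s) (Φ := f.pb) (hp_is R.pos.off)
    (pm_is R.pos (fun _ => M) fun _ => a) (hp_is posU.off) (pm_is posU _ _) rfl rfl
    R.hb R.pb.sg (fun i hi => ⟨R.z i hi, by
      rw [← hz h, ← ps_z o i hi, ← map_sub]; exact ps_dom o w.wn (ny h i hi)⟩)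
    ((par_cg w h.ca h.da h.na).of (f.pb_cst _)) ((par_cg w h.cM h.dM h.nM).of (f.pb_cst _))
  refine ⟨h1, h2, fun i => ⟨fun e => (h3 i e).2, fun k => ?_⟩⟩
  by_cases e : i = 0
  · rw [e, co_zero, co_zero, ← hz h, ← ps_t o, ← map_sub, ← sub_sub, h.hy]
    exact ps_d o w.wn h.nt k
  · exact keeps_d w.wn k (h3 i e).2

omit h in
theorem mt {g : J → Tw} (h : Out m o M a (GG o M a g) μ ν t r x1 x2 Mh ah Ni sg y K)
    (ku : ∀ᶠ p in GI m, p.2 ∈ KU M a (g p.1)) (b d : Fin 4) :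
    Dom μ ((P354YA.sG (GX m) fun q => g (m.ka q)).g b d - ∑ j, (∑ i, (hp _).L b (f.pb ((hp _).co i)) *
      f.pb (gK (hp _) (pm _ (fun q => vl Mh (m.ka q) (m.tt q)) fun q => vl ah (m.ka q) (m.tt q))
        i j)) * (hp _).L d (f.pb ((hp _).co j))) := by
  have R := regX o hM a
  have oX := R.pos.off
  have kX : ∀ᶠ p in GX m, p.2 ∈ KU M a (g (m.ka p.1)) := (rxX o).ev ku
  have co := pb_co (y := fun q => dn4 (aI t r x1 x2 (m.ka q))) f posU oX (s4 h) (e4 h)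
  have sc := smb_cv (y := fun q => dn4 (aI t r x1 x2 (m.ka q))) (s4 h)
  obtain ⟨h1, h2, h3⟩ := nr h f w hM
  obtain ⟨N, e, cg, dm⟩ : ∃ N : Hen (cj : Sm (GX m) →+* _), N.B = bdSub m.sF (KI m) ∧
      (∀ {u v}, Bd v → Dom μ (u - v) → N.Cg u v) ∧ ∀ u ∈ N.I, Dom μ u :=
    ⟨(henG (KI m) w.wn w.s).inter (dg (KI m) w.wm) (fun _ b _ => Dom.bmul w.wm b) fun _ => Dom.cj,
      rfl, fun b d => ⟨b, d.mono w.le, d⟩, fun _ k => k.2⟩
  rw [← e] at h1 h2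
  have kT := hp_is (posU (F := m.sF)).off
  have pl := fun e i => pull (N := N) (ψ := ps o) (c0 := cj) (Ni := Ni) (sg := sg) (a := ah) (M := Mh)
    kT h1 (pm_is posU _ _) rfl rfl h2 (hz h f) (h.hK ▸ h.hN)
    (by rw [← h.hK, h.hy]; exact h.hg)
    ((cg (par_cg w h.ca h.da h.na).mem (par_dom h.ca w.wm h.da)).to (f.pb_cst _).symm)
    ((cg (par_cg w h.cM h.dM h.nM).mem (par_dom h.cM w.wm h.dM)).to (f.pb_cst _).symm) e i
  rw [← h.hK] at pl
  have := met (N := N) (Φ := f.pb) (K0 := hp (GX m)) (g := (P354YA.sG _ fun q => g (m.ka q)).g)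
    (Γ := (P354YA.sG _ fun q => g (m.ka q)).Γ)
    (N' := henG (KI m) w.wn w.s) (F := P354YA.fT _ M a fun q => g (m.ka q)) kT h1
    (pm_is posU _ _) h2 (P354YA.sG_is kX) (P354YA.fT_wn kX).1.nl
  have := this (fun b i => ?_)
    (fun i => co i ▸ H_pb oX (sc i)) (fun i => ?_) e.ge (fun b i => ⟨?_, ?_⟩) b d
  · exact dm _ this.2
  · refine (cg (show _ ∈ bdSub _ _ from e ▸ (pl b i).mem) ?_).trans (pl b i)
    have := ps_dom o w.wm (h.tb b i)
    rwa [map_sub, ps_fr o ku, hz h f] at this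
  · rw [co, ← cj_pb oX (sc i), ← P354XO.cj_H, H_pb oX (sc i), map_zero]
  · split_ifs
    exacts [one_mem _, zero_mem _]
  · rw [← (hp_is oX).L_co, ← map_sub]
    exact dom_L R w.wn (h3 i).2 b

theorem ub_id (n : ℕ) : Ub m.sF (KI m) ν fun q x c =>
    Nid n (dn4 (aI t r x1 x2 (m.ka q))) (pj x) c := by
  have R := regX o hM a
  have f := mpF h w.wn w.s
  have s : ∀ i, SmB (GX m) fun q p => cv i (dn4 (aI t r x1 x2 (m.ka q)) p - p) := fun i =>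
    (s4 h).mono fun _ k => (cv i).contDiff.contDiffAt.comp _ (k.sub contDiffAt_id)
  have e : ∀ i, f.pb ((hp _).co i) - (hp _).co i =
      pb _ fun q p => cv i (dn4 (aI t r x1 x2 (m.ka q)) p - p) := fun i =>
    (Rs.sub ((f.rep_pb _).trans (f.ev (rs_co posU.off i))) (rs_co R.pos.off i)).ext
      (rs_pb R.pos.off (s i)) ((e4 h).mono fun p k => by simp only [k, map_sub, Complex.ofReal_sub])
  exact ub_nid R w.wn n ((ev_nb_on (ev_ps o (eqv h))).mono fun q k x hx =>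
    ((k x hx).2.shadow.eventually_mem ⟨x, (k x hx).1, rfl⟩).mono fun _ ⟨_, l, e⟩ =>
      e ▸ (k x hx).2.sm_dn l) s (fun i => e i ▸ ((nr h f w hM).2.2 i).2)
    fun i => e i ▸ ((nr h f w hM).2.2 i).1

omit h in
theorem ub_met {g : J → Tw} (h : Out m o M a (GG o M a g) μ ν t r x1 x2 Mh ah Ni sg y K)
    (ku : ∀ᶠ p in GI m, p.2 ∈ KU M a (g p.1)) (n : ℕ) : Ub m.sF (KI m) μ fun q x c =>
      P354XE.Bd n (g (m.ka q) - P354XE.pb (dn4 (aI t r x1 x2 (m.ka q)))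
        (gin (vl Mh (m.ka q) (m.tt q)) (vl ah (m.ka q) (m.tt q)))) (pj x) c := by
  have R := regX o hM a
  have f := mpF h w.wn w.s
  have sb : ∀ᶠ p in GX m, Sb (P354XE.pb (dn4 (aI t r x1 x2 (m.ka p.1)))
      (gin (vl Mh (m.ka p.1) (m.tt p.1)) (vl ah (m.ka p.1) (m.tt p.1)))) (pj p.2) := by
    filter_upwards [s4 h, e4 h, f.ev posU] with p h1 h2 h3
    exact (P354YO.sb_gin (by rw [h2, rd_pj h3.1 h3.2]; exact h3.1)).pull h1
  refine ub_sub (g := fun q => g (m.ka q)) R w.wm n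
    (((rxX o).ev (P354YA.k0_of ku)).mono fun _ k => P354YA.sb_vac k.2) sb fun b d => ?_
  have := mt f w hM h ku b d
  rwa [met_eq (y := fun q => dn4 (aI t r x1 x2 (m.ka q))) f posU R.pos.off (s4 h) (e4 h)
    (fun q => vl Mh (m.ka q) (m.tt q)) (fun q => vl ah (m.ka q) (m.tt q))
    fun _ _ => sb.mono fun _ k => k.sm _ _] at this

omit h w hM in
/-- NF. -/
theorem nf : NF := fun rin rig J m _ o M a g μ ν hy => by
  obtain ⟨ku, i⟩ := rin J m o M a g μ ν hy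
  obtain ⟨t, r, x1, x2, Mh, ah, Ni, sg, y, K, h⟩ := rig J m o M a _ μ ν i
  have w := i.wt
  refine ⟨fun j p => dn4 (aI t r x1 x2 j) p + -tau m.H (dn4 (aI t r x1 x2 j)) (m.t0 j, m.R1, 1, 1) • eT,
    fun j s => (vl Mh j s, vl ah j s), .of_forall fun j _ => by simp [tau, eT], fun n => ?_⟩
  have sh : ∀ᶠ q in m.sF, ∀ x ∈ m.sl.K SB q, shr m.H x ∈ KI m q :=
    .of_forall fun _ x k => by rwa [KI, mem_preimage, shr_neg]
  have pr := fun {u : m.S} {c : ℝ} e d n => ((ub_val ((rs_cst _).sub (rs_alg _))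
    (Dom.dom0 (par_cg (o := o) (u := u) (c := c) w e d n).2)).pt _ sh).up w.wn
      fun _ _ _ _ l k => k.trans l
  have dp := fun {u : m.S} d => (ub_vl (o := o) (u := u) w.wm d).up w.wm
    fun _ _ _ _ l k => k.imp fun _ k => ⟨k.1, k.2.trans l⟩
  filter_upwards [((ub_id h w hy.M0 n).pt _ sh).up w.wn fun _ _ _ _ l k => k.mono le_rfl l,
    pr h.cM h.dM h.nM, pr h.ca h.da h.na, ((ub_met w hy.M0 h ku n).pt _ sh).up w.wm
      fun _ _ _ _ l k => P354YO.bd_mono k le_rfl l, dp h.dM, dp h.da,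
    (ub_dt h w.wn).up w.wn fun _ _ _ _ l k => ⟨k.1, k.2.trans l⟩] with k a1 a2 a3 a4 a5 a6 a7 θ
  refine ((eventually_ge_atTop 0).and ?_).exists
  filter_upwards [a1 θ, a2 θ, a3 θ, a4 θ, a5 θ, a6 θ, a7 θ] with C b1 b2 b3 b4 b5 b6 b7
  filter_upwards [b1, b2, b3, b4, b5, b6, b7] with q c1 c2 c3 c4 c5 c6 c7 x hx
  obtain ⟨d, d1, d2⟩ := c5 x hx
  obtain ⟨e, e1, e2⟩ := c6 x hx
  have c2 := c2 x hx
  have c3 := c3 x hx
  rw [← Complex.ofReal_sub, Complex.norm_real] at c2 c3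
  exact At.shift ⟨c1 x hx, hx.1 ▸ max_le c2 c3, hx.1 ▸ c4 x hx, ⟨_, d1.prodMk e1, max_le d2 e2⟩,
    c7 x hx⟩ _

end Vale.Agent.P354NC
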