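import Vale.Agent.P354NC.Nf
import Vale.Agent.P354NC.Fam
import Vale.Agent.P354RN.Rin
import Vale.Agent.P354RI.Main

/-!
NY holds.
-/

namespace Vale.Agent.P354NC

theorem ny_ok : NY := fam (nf P354RN.rin_ok P354RI.rig)

end Vale.Agent.P354NC
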