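import Vale.Agent.P354NC.Jet
import Vale.Agent.P354RN.Sl
import Vale.Agent.P354XO.TameG

/-!
The transfer to the ingoing chart, and the pull back of Kerr by a map of the bundle.
-/

open scoped ContDiff
open Set Filter Topology

noncomputable section

namespace Vale.Agent.P354NC

open Vale.Agent.P354XG hiding Dom Dom0 Bd bdSub domI Keeps Low dom0_mk dom0_zero dom0_cst dom_of
  dom_zero dom_cst bd_alg dom_sum dom0_sum keeps_pd keeps_zero keeps_sum bd_closure dom_pb_aff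
  bd_fn bd_par Conn gron gron0 dom_of_sys dom_sub_ev0
open Vale.Agent.P354n (R4)
open Vale.Agent.P354RC (bs cv)
open Vale.Agent.P354MG Vale.Agent.P354XR Vale.Agent.P354RI Vale.Agent.P354RN
open Vale.Agent.P354XD hiding Sml
open Vale.Agent.P354XE (Tw gin)
open Vale.Agent.P354XO (lin)
open Vale.Agent.P354XF (fr)
open Vale.Agent.P354YA (Rx gT KU)

variable {J : Type}

section map
variable {F : Filter J} {K U : J → Set E6} {b : J × E6 → E6} (h : Mp F K U b) (o : Pos (nb F U))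
  (o2 : Off (nb F K)) {y : J → R4 → R4}
  (s4 : ∀ᶠ p in nb F K, ContDiffAt ℝ ∞ (y p.1) (pj p.2))
  (e4 : ∀ᶠ p in nb F K, y p.1 (pj p.2) = pj (b p))

omit h o e4 o2 in
include s4 in
theorem smb_cv (i : Fin 4) : SmB (nb F K) fun j q => cv i (y j q) :=
  s4.mono fun _ k => (cv i).contDiff.contDiffAt.comp _ k

include o o2 s4 e4

theorem pb_co (i : Fin 4) : h.pb ((hp _).co i) = pb _ fun j q => cv i (y j q) :=
  Rs.ext ((h.rep_pb _).trans (h.ev (rs_co o.off i))) (rs_pb o2 (smb_cv s4 i))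
    (e4.mono fun p k => by simp only [k])

theorem met_eq (M a : J → ℝ)
    (s : ∀ c d, SmB (nb F K) fun j => gc (P354XE.pb (y j) (gin (M j) (a j))) c d) (c d : Fin 4) :
    ∑ j, (∑ i, (hp _).L c (h.pb ((hp _).co i)) * h.pb (gK (hp _) (pm _ M a) i j)) *
      (hp _).L d (h.pb ((hp _).co j)) = algebraMap ℂ _ (1 / 2 : ℝ) *
        pb _ fun j => gc (P354XE.pb (y j) (gin (M j) (a j))) c d := by
  have l : ∀ c i, Rs ((hp _).L c (h.pb ((hp _).co i))) fun p =>
      (cv i (fderiv ℝ (y p.1) (pj p.2) (bs c)) : ℂ) := fun c i => by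
    rw [pb_co h o o2 s4 e4, L_pb o2 (smb_cv s4 i)]
    refine (rs_pb o2 ((smb_cv s4 i).db c)).congr (s4.mono fun p k => ?_)
    have : fderiv ℝ (fun q => cv i (y p.1 q)) (pj p.2) = _ :=
      ((cv i).hasFDerivAt.comp _ (k.differentiableAt (by simp)).hasFDerivAt).fderiv
    simp only [db, this, ContinuousLinearMap.comp_apply]
  have r : ∀ i j, Rs (h.pb (gK (hp _) (pm _ M a) i j)) fun p =>
      (1 / 2 : ℝ) * gc (gin (M p.1) (a p.1)) i j (y p.1 (pj p.2)) := fun i j =>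
    gin_eq o M a i j ▸ (h.rep_pb _).trans (((h.ev ((rs_alg _).mul (rs_pb o.off
      (f := fun j' => gc (gin (M j') (a j')) i j) (o.mono fun _ e => (vac_gin _ _ e).sm_g i j)))).and
        e4).mono fun p e => e.1.trans (by simp only [e.2]))
  refine (Rs.sum _ fun j => (Rs.sum _ fun i => (l c i).mul (r i j)).mul (l d j)).ext
    ((rs_alg _).mul (rs_pb o2 (s c d))) (.of_forall fun p => ?_)
  simp only [gc, P354XE.pb, ← P354YO.tb_ap (P354XA.gin_bil _ _ _) (fderiv ℝ _ _ _), tb,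
    Fin.sum_univ_four, add_apply, smul_apply, ContinuousLinearMap.smulRight_apply, smul_eq_mul]
  push_cast
  ring

end map

variable (m : Dm J)

/-- The small shells in the ingoing chart. -/
def KI (q : m.Q) : Set E6 := shr (-m.H) ⁻¹' m.sl.K SB q
abbrev GX : Filter (m.Q × E6) := nb m.sF (KI m)

variable {m} [Gr m.sF] (o : m.Ok)
include o

theorem rxX : Rx (GX m) (GI m) m.ka := fun _ hP => ev_nb.2 ((ev_nb.1 (rxS o hP)).mono
  fun _ h x hx => h x ⟨hx.1, hx.2.1, sb_sa hx.2.2⟩)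

theorem mpX : Mp m.sF (KI m) (m.sl.K SB) fun p => shr (-m.H) p.2 :=
  ⟨.of_forall fun _ => (shr_cd o.H.neg).contDiffAt, .of_forall fun _ _ h => h⟩

theorem regX {M : ℝ} (hM : 0 < M) (a : ℝ) : Reg m.sF (KI m) (fun _ => M) fun _ => a :=
  (o.reg sb_sa hM a).mono fun _ h θ => (h θ).imp fun _ h => ⟨h.1, h.2.imp fun _ h =>
    h.mono fun _ h x hx => h (shr (-m.H) x) hx⟩

theorem tameX : Tame (mpX o) := fun l v => by
  rw [Mp.co, (rs_mk ((mpX o).sm_co l)).ext (b := lin l + algebraMap ℂ _ (l (1, 0)) * rg _ (-m.H))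
    ((rs_mk (P354XO.sm_lin l)).add ((rs_alg _).mul (rs_rg o.H.neg))) (.of_forall fun p => by
      have : shr (-m.H) p.2 = p.2 + (-m.H) p.2.2.1 • ((1, 0) : E6) := by ext <;> simp [shr]
      simp only [this, map_add, map_smul, Complex.real_smul, mul_comm]),
    D_add, P354XO.pd_lin]
  exact (bd_alg _).add wgt_one
    (((bd_alg _).bmul wgt_one (bd_rg (regX o one_pos 0) o.H.neg)).pd v)

/-- The germ along the small shells in the ingoing chart. -/
def ps : m.S →ₐ[ℂ] Sm (GX m) := (mpX o).pb.comp (o.rx sb_sa)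

variable {u : m.S} {μ : ℕ → m.Q → ℝ}

theorem ev_ps {P : J × E6 → Prop} (h : ∀ᶠ p in m.G, P p) :
    ∀ᶠ p in GX m, P (m.ka p.1, shr (-m.H) p.2) := (mpX o).ev ((o.rxx sb_sa).ev h)

theorem rs_ps {f : J × E6 → ℂ} (r : Rs u f) :
    Rs (ps o u) fun p => f (m.ka p.1, shr (-m.H) p.2) :=
  ((mpX o).rep_pb _).trans ((mpX o).ev ((o.rxx sb_sa).rs r))

theorem ps_dom (hμ : Wgt μ) (h : o.DB μ u) : Dom μ (ps o u) := Dom.pb h _ (tameX o) hμ

theorem rx_pd (hμ : Wgt μ) (h : ∀ i, o.DB μ (m.h.d i u)) (v : E6) : Dom μ (pd v (o.rx sb_sa u)) :=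
  dom_pd hμ (fun i => (o.hh sb_sa).d i u ▸ h i) v

theorem ps_d (hμ : Wgt μ) (h : ∀ i, o.DB μ (m.h.d i u)) (i : Fin 6) :
    Dom μ ((hp _).d i (ps o u)) := by
  have e : ∀ v, Dom μ (pd v (ps o u)) := fun v => by
    rw [ps, AlgHom.comp_apply, (mpX o).pd_pb (Module.finBasis ℝ E6)]
    exact dom_sum hμ _ fun _ _ => (tameX o _ v).bmul hμ ((rx_pd o hμ h _).pb _ (tameX o) hμ)
  rw [hp_d]
  exact ((bd_alg _).bmul hμ (e _)).add hμ ((bd_alg _).bmul hμ (e _))

theorem ps_fr {M a : ℝ} {g : J → Tw} (k : ∀ᶠ p in GI m, p.2 ∈ KU M a (g p.1)) (b : Fin 6)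
    (u : m.S) : ps o (fr (GG o M a g) b u) =
      fr (gT (GX m) M a fun q => g (m.ka q)) b (ps o u) := by
  have e : ∀ u, ps o ((sq o).pb u) = (rxX o).rix u := fun u =>
    (rs_ps o ((sq o).rep_pb u)).ext ((rxX o).rep u) (.of_forall fun p => by simp only [neg_shr])
  rw [← (sq o).toSec.pb_pb ⟨tend_shr o.H.neg fun _ _ h => h,
    .of_forall fun _ => (shr_cd o.H.neg).contDiffAt⟩ u, GG, ← P354RN.hom_fr ((sq o).hom
      (gv_of vf_gT) rfl), e, e, P354RN.hom_fr (gT_rx (rxX o) k)]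

theorem ps_z (i : Fin 6) (h : i ≠ 0) : ps o (m.h.z i) = (hp _).z i :=
  (rs_ps o (rs_z i)).ext (rs_z i) (.of_forall fun p => by
    fin_cases i
    exacts [absurd rfl h, rfl, rfl, rfl, rfl, rfl])

theorem ps_t : ps o (m.h.z 0 + m.rf m.H) = (hp _).z 0 :=
  (rs_ps o ((rs_z 0).add (Dm.rs_rf o.H))).ext (rs_z 0) (.of_forall fun p => by simp [zc, shr])

end Vale.Agent.P354NC
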